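import Mathlib

/-! Definitions for statements about Hilbert's tenth problem over the rational numbers as a
computational problem: sparse polynomials, their binary code, polynomial time. -/

set_option linter.all false

namespace Vale.Agent.P027.N.U

/-- sparse polynomials: lists of terms, a term is a coefficient and a list of variables -/
abbrev Poly : Type := List (ℤ × List ℕ)

/-- the polynomial of a term -/
noncomputable def termMv (t : ℤ × List ℕ) : MvPolynomial ℕ ℤ :=
  MvPolynomial.C t.1 * (t.2.map MvPolynomial.X).prod

/-- the polynomial given by a list of terms -/
noncomputable def toMv (F : Poly) : MvPolynomial ℕ ℤ := (F.map termMv).sum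

/-- binary digits, each preceded by `true`, then `false` -/
def codeN (n : ℕ) : List Bool := (n.bits.flatMap fun b => [true, b]) ++ [false]

/-- numbers, each preceded by `true`, then `false` -/
def codeL (l : List ℕ) : List Bool := (l.flatMap fun n => true :: codeN n) ++ [false]

/-- terms: sign, absolute value, list of variables -/
def codeT (t : ℤ × List ℕ) : List Bool := decide (t.1 < 0) :: (codeN t.1.natAbs ++ codeL t.2)

/-- polynomials -/
def codeP (F : Poly) : List Bool := F.flatMap codeT

end Vale.Agent.P027.N.U

namespace Vale.Agent.P027.N.D

open Vale.Agent.P027.N.U (Poly toMv codeP)

/-- the polynomial has a rational zero -/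
def HasZero (F : Poly) : Prop := ∃ y : ℕ → ℚ, MvPolynomial.aeval y (toMv F) = 0

/-- functions on binary words that are computable in polynomial time, in the sense of Mathlib -/
def PolyTime (f : List Bool → List Bool) : Prop :=
  Nonempty (Turing.TM2ComputableInPolyTime (id : List Bool → List Bool)
    (id : List Bool → List Bool) f)

/-- the code of a pair of words: the bits of the first word, each preceded by `true`, then
`false`, then the second word -/
def pairW (x r : List Bool) : List Bool := (x.flatMap fun b => [true, b]) ++ false :: r

end Vale.Agent.P027.N.D
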