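import Vale.Agent.P027.H847.U.Comp
import Vale.Agent.P027.H847.U.Pdef

/-! From systems of elementary equations to one polynomial of degree four with integer
coefficients, in polynomial time. -/

set_option linter.all false

namespace Vale.Agent.P027.N.U

open Vale.Agent.Lib.PolyTime

/-! ### The code is faithful -/

theorem bitsCode_inj : ∀ {u v s t : List Bool},
    (u.flatMap fun b => [true, b]) ++ (false :: s) = (v.flatMap fun b => [true, b]) ++ (false :: t) →
    u = v ∧ s = t
  | [], [], s, t, h => by simpa using h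
  | [], b :: v, s, t, h => by simp at h
  | a :: u, [], s, t, h => by simp at h
  | a :: u, b :: v, s, t, h => by
    simp only [List.flatMap_cons, List.cons_append, List.nil_append, List.cons.injEq, true_and] at h
    obtain ⟨h1, h2⟩ := bitsCode_inj h.2
    exact ⟨by rw [h.1, h1], h2⟩

theorem codeN_inj {m n : ℕ} {s t : List Bool} (h : codeN m ++ s = codeN n ++ t) :
    m = n ∧ s = t := by
  simp only [codeN, List.append_assoc, List.cons_append, List.nil_append] at h
  obtain ⟨h1, h2⟩ := bitsCode_inj h
  refine ⟨?_, h2⟩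
  rw [← val_bits m, ← val_bits n, h1]

theorem codeL_cons (n : ℕ) (l : List ℕ) : codeL (n :: l) = true :: (codeN n ++ codeL l) := by
  simp [codeL]

theorem codeL_nil : codeL [] = [false] := rfl

theorem codeL_inj : ∀ {l m : List ℕ} {s t : List Bool}, codeL l ++ s = codeL m ++ t →
    l = m ∧ s = t
  | [], [], s, t, h => by simpa [codeL_nil] using h
  | [], n :: m, s, t, h => by simp [codeL_nil, codeL_cons] at h
  | k :: l, [], s, t, h => by simp [codeL_nil, codeL_cons] at h
  | k :: l, n :: m, s, t, h => by
    simp only [codeL_cons, List.cons_append, List.append_assoc, List.cons.injEq, true_and] at h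
    obtain ⟨h1, h2⟩ := codeN_inj h
    obtain ⟨h3, h4⟩ := codeL_inj h2
    exact ⟨by rw [h1, h3], h4⟩

theorem codeT_inj {p q : ℤ × List ℕ} {s t : List Bool} (h : codeT p ++ s = codeT q ++ t) :
    p = q ∧ s = t := by
  obtain ⟨a, l⟩ := p
  obtain ⟨b, m⟩ := q
  simp only [codeT, List.cons_append, List.append_assoc, List.cons.injEq] at h
  obtain ⟨h0, h⟩ := h
  obtain ⟨h1, h2⟩ := codeN_inj h
  obtain ⟨h3, h4⟩ := codeL_inj h2
  have h5 : a < 0 ↔ b < 0 := by
    constructor
    · intro ha
      simpa [ha] using h0.symm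
    · intro hb
      simpa [hb] using h0
  have h6 : a = b := by omega
  exact ⟨by rw [h6, h3], h4⟩

theorem codeP_injective : Function.Injective codeP := by
  intro F
  induction F with
  | nil =>
    intro G h
    cases G with
    | nil => rfl
    | cons t G => simp [codeP, codeT] at h
  | cons p F ih =>
    intro G h
    cases G with
    | nil => simp [codeP, codeT] at h
    | cons q G =>
      have h1 : codeT p ++ codeP F = codeT q ++ codeP G := by simpa [codeP] using h
      obtain ⟨h2, h3⟩ := codeT_inj h1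
      rw [h2, ih h3]

/-! ### Sums of squares -/

/-- the square of the difference of the two sides of an elementary equation -/
def sq : Eqn ℕ → Poly
  | .one a => [(1, [a, a]), (-2, [a]), (1, [])]
  | .add a b c => [(1, [a, a]), (1, [b, b]), (1, [c, c]), (-2, [a, b]), (-2, [a, c]), (2, [b, c])]
  | .mul a b c => [(1, [a, a]), (-2, [a, b, c]), (1, [b, b, c, c])]

/-- the sum of the squares -/
def sqs (L : List (Eqn ℕ)) : Poly := L.flatMap sq

theorem toMv_append (F G : Poly) : toMv (F ++ G) = toMv F + toMv G := by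
  simp [toMv]

/-- the difference of the two sides -/
def dif (y : ℕ → ℚ) : Eqn ℕ → ℚ
  | .one a => y a - 1
  | .add a b c => y a - (y b + y c)
  | .mul a b c => y a - y b * y c

theorem dif_eq_zero (y : ℕ → ℚ) (e : Eqn ℕ) : dif y e = 0 ↔ e.Holds y := by
  cases e <;> simp only [dif, Eqn.Holds, sub_eq_zero]

theorem aeval_termMv (y : ℕ → ℚ) (t : ℤ × List ℕ) :
    MvPolynomial.aeval y (termMv t) = (t.1 : ℚ) * (t.2.map y).prod := by
  rw [termMv, map_mul, map_list_prod, List.map_map]
  congr 1
  · simp
  · congr 1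
    refine List.map_congr_left fun i _ => ?_
    simp

theorem aeval_toMv (y : ℕ → ℚ) (F : Poly) :
    MvPolynomial.aeval y (toMv F) = (F.map fun t => (t.1 : ℚ) * (t.2.map y).prod).sum := by
  rw [toMv, map_list_sum, List.map_map]
  congr 1
  refine List.map_congr_left fun t _ => ?_
  exact aeval_termMv y t

theorem aeval_sq (y : ℕ → ℚ) (e : Eqn ℕ) :
    MvPolynomial.aeval y (toMv (sq e)) = dif y e ^ 2 := by
  rw [aeval_toMv]
  cases e <;> simp only [sq, dif, List.map_cons, List.map_nil, List.sum_cons, List.sum_nil,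
    List.prod_cons, List.prod_nil] <;> push_cast <;> ring

theorem aeval_sqs (y : ℕ → ℚ) (L : List (Eqn ℕ)) :
    MvPolynomial.aeval y (toMv (sqs L)) = (L.map fun e => dif y e ^ 2).sum := by
  induction L with
  | nil => simp [sqs, toMv]
  | cons e L ih =>
    have h1 : sqs (e :: L) = sq e ++ sqs L := by simp [sqs]
    rw [h1, toMv_append, map_add, aeval_sq, ih, List.map_cons, List.sum_cons]

theorem aeval_sqs_nonneg (y : ℕ → ℚ) (L : List (Eqn ℕ)) :
    0 ≤ MvPolynomial.aeval y (toMv (sqs L)) := by
  rw [aeval_sqs]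
  refine List.sum_nonneg fun r hr => ?_
  obtain ⟨e, _, rfl⟩ := List.mem_map.1 hr
  exact sq_nonneg _

theorem aeval_sqs_eq_zero (y : ℕ → ℚ) (L : List (Eqn ℕ)) :
    MvPolynomial.aeval y (toMv (sqs L)) = 0 ↔ ∀ e ∈ L, e.Holds y := by
  induction L with
  | nil => simp [sqs, toMv]
  | cons e L ih =>
    have h1 : sqs (e :: L) = sq e ++ sqs L := by simp [sqs]
    have h2 := aeval_sqs_nonneg y L
    have h3 := sq_nonneg (dif y e)
    rw [h1, toMv_append, map_add, aeval_sq, List.forall_mem_cons, ← ih, ← dif_eq_zero]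
    constructor
    · intro h
      refine ⟨?_, by linarith⟩
      have h4 : dif y e ^ 2 = 0 := by linarith
      exact pow_eq_zero_iff (by norm_num) |>.1 h4
    · rintro ⟨h, h'⟩
      rw [h, h']
      norm_num

theorem totalDegree_termMv_le (t : ℤ × List ℕ) : (termMv t).totalDegree ≤ t.2.length := by
  obtain ⟨a, l⟩ := t
  rw [termMv]
  refine (MvPolynomial.totalDegree_mul _ _).trans ?_
  rw [MvPolynomial.totalDegree_C, zero_add]
  refine (MvPolynomial.totalDegree_list_prod _).trans ?_
  rw [List.map_map]
  refine (List.sum_le_card_nsmul _ 1 fun r hr => ?_).trans ?_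
  · obtain ⟨i, _, rfl⟩ := List.mem_map.1 hr
    exact (MvPolynomial.totalDegree_X (R := ℤ) i).le
  · simp

theorem totalDegree_toMv_le {d : ℕ} (F : Poly) (h : ∀ t ∈ F, t.2.length ≤ d) :
    (toMv F).totalDegree ≤ d := by
  induction F with
  | nil => simp [toMv]
  | cons t F ih =>
    have h1 : toMv (t :: F) = termMv t + toMv F := by simp [toMv]
    rw [h1]
    refine (MvPolynomial.totalDegree_add _ _).trans (max_le ?_ ?_)
    · exact (totalDegree_termMv_le t).trans (h t List.mem_cons_self)
    · exact ih fun s hs => h s (List.mem_cons_of_mem _ hs)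

theorem totalDegree_sqs (L : List (Eqn ℕ)) : (toMv (sqs L)).totalDegree ≤ 4 := by
  refine totalDegree_toMv_le _ fun t ht => ?_
  obtain ⟨e, _, he⟩ := List.mem_flatMap.1 ht
  cases e <;> simp only [sq, List.mem_cons, List.not_mem_nil, or_false] at he <;>
    rcases he with rfl | rfl | rfl | rfl | rfl | rfl <;> simp

end Vale.Agent.P027.N.U
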