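import Vale.Agent.P027.H847.U.Poly

/-! The polynomial of a program is computable in polynomial time. -/

set_option linter.all false

namespace Vale.Agent.P027.N.U

open Vale.Agent.Lib.PolyTime

variable {α : Type} [Enc α]

theorem codeN_pt {f : α → ℕ} (hf : PT ∅ f) : PT ∅ (fun a => codeN (f a)) := by
  have h1 : PT ∅ (fun p : α × Bool => [true, p.2]) :=
    PT.cons (PT.const true) (PT.cons PT.snd' PT.nil)
  exact PT.append (PT.flatMap (f := fun _ b => [true, b]) (PT.natBits hf) h1) (PT.const [false])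

theorem codeL_nil_pt : PT ∅ (fun _ : α => codeL []) := PT.const _

theorem codeL_cons_pt {f : α → ℕ} {l : α → List ℕ} (hf : PT ∅ f) (hl : PT ∅ (fun a => codeL (l a))) :
    PT ∅ (fun a => codeL (f a :: l a)) :=
  (PT.cons (PT.const true) (PT.append (codeN_pt hf) hl)).congr fun a => (codeL_cons _ _).symm

theorem codeT_pt (z : ℤ) {l : α → List ℕ} (hl : PT ∅ (fun a => codeL (l a))) :
    PT ∅ (fun a => codeT (z, l a)) :=
  PT.cons (PT.const (decide (z < 0))) (PT.append (PT.const (codeN z.natAbs)) hl)

theorem codeP_nil_pt : PT ∅ (fun _ : α => codeP []) := PT.const _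

theorem codeP_cons_pt {t : α → ℤ × List ℕ} {F : α → Poly} (ht : PT ∅ (fun a => codeT (t a)))
    (hF : PT ∅ (fun a => codeP (F a))) : PT ∅ (fun a => codeP (t a :: F a)) :=
  (PT.append ht hF).congr fun a => by simp [codeP]

theorem codeP_append (F G : Poly) : codeP (F ++ G) = codeP F ++ codeP G := by
  simp [codeP]

theorem codeP_flatMap {γ : Type} (l : List γ) (f : γ → Poly) :
    codeP (l.flatMap f) = l.flatMap (fun a => codeP (f a)) := by
  induction l with
  | nil => rfl
  | cons a l ih => rw [List.flatMap_cons, List.flatMap_cons, codeP_append, ih]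

theorem sq_pt (e : Eqn Bd) {q : α → List Un} (hq : PT ∅ q) :
    PT ∅ (fun a => codeP (sq (e.map (Bd.ev (vals (q a)))))) := by
  cases e with
  | one a =>
    have ha := (a.pt hq).1
    exact codeP_cons_pt (codeT_pt _ (codeL_cons_pt ha (codeL_cons_pt ha codeL_nil_pt)))
      (codeP_cons_pt (codeT_pt _ (codeL_cons_pt ha codeL_nil_pt))
      (codeP_cons_pt (codeT_pt _ codeL_nil_pt) codeP_nil_pt))
  | add a b c =>
    have ha := (a.pt hq).1
    have hb := (b.pt hq).1
    have hc := (c.pt hq).1
    exact codeP_cons_pt (codeT_pt _ (codeL_cons_pt ha (codeL_cons_pt ha codeL_nil_pt)))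
      (codeP_cons_pt (codeT_pt _ (codeL_cons_pt hb (codeL_cons_pt hb codeL_nil_pt)))
      (codeP_cons_pt (codeT_pt _ (codeL_cons_pt hc (codeL_cons_pt hc codeL_nil_pt)))
      (codeP_cons_pt (codeT_pt _ (codeL_cons_pt ha (codeL_cons_pt hb codeL_nil_pt)))
      (codeP_cons_pt (codeT_pt _ (codeL_cons_pt ha (codeL_cons_pt hc codeL_nil_pt)))
      (codeP_cons_pt (codeT_pt _ (codeL_cons_pt hb (codeL_cons_pt hc codeL_nil_pt)))
        codeP_nil_pt)))))
  | mul a b c =>
    have ha := (a.pt hq).1
    have hb := (b.pt hq).1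
    have hc := (c.pt hq).1
    exact codeP_cons_pt (codeT_pt _ (codeL_cons_pt ha (codeL_cons_pt ha codeL_nil_pt)))
      (codeP_cons_pt (codeT_pt _ (codeL_cons_pt ha (codeL_cons_pt hb (codeL_cons_pt hc
        codeL_nil_pt))))
      (codeP_cons_pt (codeT_pt _ (codeL_cons_pt hb (codeL_cons_pt hb (codeL_cons_pt hc
        (codeL_cons_pt hc codeL_nil_pt))))) codeP_nil_pt))

theorem sqs_append (L M : List (Eqn ℕ)) : sqs (L ++ M) = sqs L ++ sqs M := by
  simp [sqs]

theorem sqs_flatMap {γ : Type} (l : List γ) (f : γ → List (Eqn ℕ)) :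
    sqs (l.flatMap f) = l.flatMap (fun a => sqs (f a)) := by
  induction l with
  | nil => rfl
  | cons a l ih => rw [List.flatMap_cons, List.flatMap_cons, sqs_append, ih]

theorem Gen.ptP (g : Gen) : ∀ {α : Type} [Enc α] {x : α → List Bool} {q : α → List Un},
    PT ∅ x → PT ∅ q → PT ∅ (fun a => codeP (sqs (g.run (x a) (vals (q a))))) := by
  induction g with
  | nil => intro α _ x q hx hq; exact PT.const _
  | emit e =>
    intro α _ x q hx hq
    refine (sq_pt e hq).congr fun a => ?_
    simp [Gen.run, sqs]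
  | seq g h ihg ihh =>
    intro α _ x q hx hq
    refine (PT.append (ihg hx hq) (ihh hx hq)).congr fun a => ?_
    rw [Gen.run, sqs_append, codeP_append]
  | loop b g ih =>
    intro α _ x q hx hq
    have h1 : PT ∅ (fun p : α × Un => codeP (sqs (g.run (x p.1) (vals (p.2 :: q p.1))))) :=
      ih (hx.comp PT.fst') (PT.cons PT.snd' (hq.comp PT.fst'))
    refine (PT.flatMap (f := fun a u => codeP (sqs (g.run (x a) (vals (u :: q a)))))
      (rangeU_pt (b.pt hq).1 (b.pt hq).2) h1).congr fun a => ?_
    rw [List.flatMap_map, Gen.run, sqs_flatMap, codeP_flatMap]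
    rfl
  | bind b g ih =>
    intro α _ x q hx hq
    exact ih hx (PT.cons (PT.mkUn (b.pt hq).1 (b.pt hq).2) hq)
  | ite c g h ihg ihh =>
    intro α _ x q hx hq
    refine (PT.cond (c.pt hx hq) (ihg hx hq) (ihh hx hq)).congr fun a => ?_
    rw [Gen.run]
    cases c.ev (x a) (vals (q a)) <;> rfl

/-- the polynomial of a program and an input word -/
def Gen.poly (g : Gen) (x : List Bool) : Poly := sqs (g.out x)

theorem Gen.fpP (g : Gen) : FP ∅ (fun x : List Bool => codeP (g.poly x)) := by
  have h1 : PT ∅ (fun r : Raw => Raw.mk (codeP (sqs (g.run r.w (vals [Un.mk r.w.length]))))) := by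
    have hx : PT ∅ (fun r : Raw => (r.w : List Bool)) := PT.listOfRaw PT.id
    have hq : PT ∅ (fun r : Raw => [Un.mk r.w.length]) :=
      PT.cons (PT.mkUn (PT.rawLength PT.id) (PBd.esize.mono fun r => le_rfl)) PT.nil
    exact PT.rawOfList (g.ptP hx hq)
  obtain ⟨F, hF, hF'⟩ := h1
  have h2 : F = fun x : List Bool => codeP (g.poly x) := by
    funext x
    exact hF' (Raw.mk x)
  rwa [h2] at hF

/-- **the compiler theorem** for polynomials: the sum of the squares of the equations that a
program puts out is computed by one of Mathlib's Turing machines in polynomial time. -/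
theorem compileP' (g : Gen) :
    ∃ M : Turing.TM2ComputableInPolyTime (id : List Bool → List Bool) codeP g.poly,
      ∀ k, Finite (M.tm.Γ k) :=
  exists_tm2_of_polyTimeFun (id : List Bool → List Bool) codeP g.poly _
    (polyTimeFun_iff.2 g.fpP) fun a => rfl

theorem compileP (g : Gen) :
    Nonempty (Turing.TM2ComputableInPolyTime (id : List Bool → List Bool) codeP g.poly) := by
  obtain ⟨M, _⟩ := compileP' g
  exact ⟨M⟩

/-- Same, with the words as values. -/
theorem compileW (g : Gen) : Nonempty (Turing.TM2ComputableInPolyTime (id : List Bool → List Bool)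
    (id : List Bool → List Bool) fun x => codeP (g.poly x)) := by
  obtain ⟨M, _⟩ := exists_tm2_of_polyTimeFun (id : List Bool → List Bool)
    (id : List Bool → List Bool) (fun x => codeP (g.poly x)) _
    (polyTimeFun_iff.2 g.fpP) fun a => rfl
  exact ⟨M⟩

theorem Gen.poly_zero (g : Gen) (x : List Bool) :
    (∃ y : ℕ → ℚ, MvPolynomial.aeval y (toMv (g.poly x)) = 0) ↔
      ∃ y : ℕ → ℚ, ∀ e ∈ g.out x, e.Holds y :=
  exists_congr fun y => aeval_sqs_eq_zero y _

theorem Gen.poly_degree (g : Gen) (x : List Bool) : (toMv (g.poly x)).totalDegree ≤ 4 :=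
  totalDegree_sqs _

end Vale.Agent.P027.N.U
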