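import Vale.Agent.P027.N.U.Lang
import Vale.Agent.Lib.PolyTime.Bitwise
import Vale.Agent.Lib.PolyTime.Lists2
import Vale.Agent.Lib.PolyTime.TypedTM2

/-! The compiler: every program of the template language runs in polynomial time, in the sense of
Mathlib's Turing machines. -/

set_option linter.all false

namespace Vale.Agent.P027.N.U

open Vale.Agent.Lib.PolyTime

/-- the three bit codes of the output symbols -/
def c3 : Sy → List Bool
  | .one => [false, false, false]
  | .add => [false, false, true]
  | .mul => [false, true, false]
  | .tick => [false, true, true]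
  | .stop => [true, false, false]

/-- the binary code of a word over the output alphabet -/
def wordB (w : List Sy) : List Bool := w.flatMap c3

/-- the binary code of a system -/
def encB (L : List (Eqn ℕ)) : List Bool := wordB (enc L)

theorem wordB_append (u v : List Sy) : wordB (u ++ v) = wordB u ++ wordB v := by
  simp [wordB]

theorem wordB_cons (a : Sy) (v : List Sy) : wordB (a :: v) = c3 a ++ wordB v := by
  simp [wordB]

theorem wordB_injective : Function.Injective wordB := by
  intro u
  induction u with
  | nil =>
    intro v h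
    cases v with
    | nil => rfl
    | cons b v => rw [wordB_cons] at h; cases b <;> simp [wordB, c3] at h
  | cons a u ih =>
    intro v h
    cases v with
    | nil => rw [wordB_cons] at h; cases a <;> simp [wordB, c3] at h
    | cons b v =>
      rw [wordB_cons, wordB_cons] at h
      have h1 : a = b ∧ wordB u = wordB v := by
        cases a <;> cases b <;> simp_all [c3]
      rw [h1.1, ih h1.2]

theorem encB_injective : Function.Injective encB := fun _ _ h => enc_injective (wordB_injective h)

theorem encB_append (L M : List (Eqn ℕ)) : encB (L ++ M) = encB L ++ encB M := by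
  simp [encB, enc, wordB]

theorem encB_flatMap {α : Type} (l : List α) (f : α → List (Eqn ℕ)) :
    encB (l.flatMap f) = l.flatMap (fun a => encB (f a)) := by
  induction l with
  | nil => rfl
  | cons a l ih => rw [List.flatMap_cons, List.flatMap_cons, encB_append, ih]

/-! ### Terms -/

/-- the values of the counters -/
def vals (q : List Un) : List ℕ := q.map Un.v

theorem vals_getD (q : List Un) (i : ℕ) : (vals q).getD i 0 = (q.getD i ⟨0⟩).v := by
  simp only [vals, List.getD_eq_getElem?_getD, List.getElem?_map]
  cases q[i]? <;> rfl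

variable {α : Type} [Enc α]

theorem Bd.pt (b : Bd) {q : α → List Un} (hq : PT ∅ q) :
    PT ∅ (fun a => b.ev (vals (q a))) ∧ PBd (fun a => b.ev (vals (q a))) := by
  induction b with
  | const c => exact ⟨PT.const c, PBd.const c⟩
  | var i =>
    have h1 : PT ∅ (fun a => (q a).getD i ⟨0⟩) := PT.getD hq (PT.const i) (PT.const _)
    refine ⟨(PT.unVal h1).congr fun a => ?_, (PBd.unVal h1).mono fun a => ?_⟩
    · exact (vals_getD _ _).symm
    · exact (vals_getD _ _).le
  | add a b iha ihb => exact ⟨PT.add iha.1 ihb.1, PBd.add iha.2 ihb.2⟩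
  | mul a b iha ihb => exact ⟨PT.mul iha.1 ihb.1, PBd.mul iha.2 ihb.2⟩

theorem Cnd.pt (c : Cnd) {x : α → List Bool} {q : α → List Un} (hx : PT ∅ x) (hq : PT ∅ q) :
    PT ∅ (fun a => c.ev (x a) (vals (q a))) := by
  cases c with
  | lt a b => exact PT.lt (a.pt hq).1 (b.pt hq).1
  | bit a => exact PT.getD hx (a.pt hq).1 (PT.const false)
  | tb a b => exact PT.testBit (a.pt hq).1 (b.pt hq).1

/-! ### Emission -/

theorem wordB_encN (n : ℕ) :
    wordB (encN n) = (List.replicate n (c3 .tick)).flatten ++ c3 .stop := by
  rw [encN, wordB_append, wordB_cons]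
  have h1 : wordB (List.replicate n Sy.tick) = (List.replicate n (c3 .tick)).flatten := by
    simp [wordB, List.flatMap_def]
  rw [h1]
  simp [wordB]

theorem num_pt (b : Bd) {q : α → List Un} (hq : PT ∅ q) :
    PT ∅ (fun a => wordB (encN (b.ev (vals (q a))))) := by
  refine (PT.append (PT.flatten (PT.replicate (b.pt hq).1 (b.pt hq).2
    (PT.const (c3 .tick)))) (PT.const (c3 .stop))).congr fun a => (wordB_encN _).symm

theorem emit_pt (e : Eqn Bd) {q : α → List Un} (hq : PT ∅ q) :
    PT ∅ (fun a => encB [e.map (Bd.ev (vals (q a)))]) := by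
  cases e with
  | one a =>
    refine (PT.append (PT.const (c3 .one)) (num_pt a hq)).congr fun s => ?_
    simp only [encB, enc, Eqn.map, encE, List.flatMap_cons, List.flatMap_nil, List.append_nil,
      wordB_cons]
  | add a b c =>
    refine (PT.append (PT.const (c3 .add)) (PT.append (num_pt a hq)
      (PT.append (num_pt b hq) (num_pt c hq)))).congr fun s => ?_
    simp only [encB, enc, Eqn.map, encE, List.flatMap_cons, List.flatMap_nil, List.append_nil,
      wordB_cons, wordB_append]
  | mul a b c =>
    refine (PT.append (PT.const (c3 .mul)) (PT.append (num_pt a hq)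
      (PT.append (num_pt b hq) (num_pt c hq)))).congr fun s => ?_
    simp only [encB, enc, Eqn.map, encE, List.flatMap_cons, List.flatMap_nil, List.append_nil,
      wordB_cons, wordB_append]

/-! ### Programs -/

/-- `0, …, k - 1` in unary, for a number `k` that is bounded by a polynomial -/
theorem rangeU_pt {k : α → ℕ} (hk : PT ∅ k) (hb : PBd k) :
    PT ∅ (fun a => (List.range (k a)).map Un.mk) := by
  have h1 : PT ∅ (fun p : α × ℕ => Un.mk (Min.min p.2 (k p.1))) :=
    PT.mkUn (PT.min PT.snd' (hk.comp PT.fst')) ((hb.comp (A := ∅) PT.fst').mono fun p => min_le_right _ _)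
  refine (PT.map (f := fun a i => Un.mk (Min.min i (k a))) (PT.range hk hb) h1).congr fun a => ?_
  refine List.map_congr_left fun i hi => ?_
  rw [min_eq_left (List.mem_range.1 hi).le]

theorem Gen.pt (g : Gen) : ∀ {α : Type} [Enc α] {x : α → List Bool} {q : α → List Un},
    PT ∅ x → PT ∅ q → PT ∅ (fun a => encB (g.run (x a) (vals (q a)))) := by
  induction g with
  | nil => intro α _ x q hx hq; exact PT.const _
  | emit e => intro α _ x q hx hq; exact emit_pt e hq
  | seq g h ihg ihh =>
    intro α _ x q hx hq
    exact (PT.append (ihg hx hq) (ihh hx hq)).congr fun a => (encB_append _ _).symm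
  | loop b g ih =>
    intro α _ x q hx hq
    have h1 : PT ∅ (fun p : α × Un => encB (g.run (x p.1) (vals (p.2 :: q p.1)))) :=
      ih (hx.comp PT.fst') (PT.cons PT.snd' (hq.comp PT.fst'))
    refine (PT.flatMap (f := fun a u => encB (g.run (x a) (vals (u :: q a))))
      (rangeU_pt (b.pt hq).1 (b.pt hq).2) h1).congr fun a => ?_
    rw [List.flatMap_map, Gen.run, encB_flatMap]
    rfl
  | bind b g ih =>
    intro α _ x q hx hq
    exact ih hx (PT.cons (PT.mkUn (b.pt hq).1 (b.pt hq).2) hq)
  | ite c g h ihg ihh =>
    intro α _ x q hx hq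
    refine (PT.cond (c.pt hx hq) (ihg hx hq) (ihh hx hq)).congr fun a => ?_
    rw [Gen.run]
    cases c.ev (x a) (vals (q a)) <;> rfl

/-- the output of a program, as a function on binary words, is in the class `FP` -/
theorem Gen.fp (g : Gen) : FP ∅ (fun x : List Bool => encB (g.out x)) := by
  have h1 : PT ∅ (fun r : Raw => Raw.mk (encB (g.run r.w (vals [Un.mk r.w.length])))) := by
    have hx : PT ∅ (fun r : Raw => (r.w : List Bool)) := PT.listOfRaw PT.id
    have hq : PT ∅ (fun r : Raw => [Un.mk r.w.length]) :=
      PT.cons (PT.mkUn (PT.rawLength PT.id) (PBd.esize.mono fun r => le_rfl)) PT.nil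
    exact PT.rawOfList (g.pt hx hq)
  obtain ⟨F, hF, hF'⟩ := h1
  have h2 : F = fun x : List Bool => encB (g.out x) := by
    funext x
    exact hF' (Raw.mk x)
  rwa [h2] at hF

/-- **the compiler theorem**: every program is computed by one of Mathlib's Turing machines in
polynomial time; the output alphabet is binary. -/
theorem compile' (g : Gen) :
    ∃ M : Turing.TM2ComputableInPolyTime (id : List Bool → List Bool) encB g.out,
      ∀ k, Finite (M.tm.Γ k) :=
  exists_tm2_of_polyTimeFun (id : List Bool → List Bool) encB g.out _
    (polyTimeFun_iff.2 g.fp) fun a => rfl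

/-- The compiler theorem, short form. -/
theorem compile (g : Gen) :
    Nonempty (Turing.TM2ComputableInPolyTime (id : List Bool → List Bool) encB g.out) := by
  obtain ⟨M, _⟩ := compile' g
  exact ⟨M⟩

end Vale.Agent.P027.N.U
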